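import Vale.Agent.P239.H260.Main

/-!
The Singer conjecture in dimension four, and its degree one part in every dimension.
-/

namespace Vale.Agent.Results.P239.SingerDegreeOne

open Vale.Agent.P239

universe u v w

theorem result :
    -- (1) Q1: `M` is a closed topological 4-manifold, `X` is its universal cover, which is
    -- contractible, and `Γ` is the deck group
    (∀ {M : Type u} {X : Type v} {Γ : Type w}
      [TopologicalSpace M] [T2Space M] [CompactSpace M] [ChartedSpace (EuclideanSpace ℝ (Fin 4)) M]
      [TopologicalSpace X] [ContractibleSpace X] [Group Γ] [MulAction Γ X] [ContinuousConstSMul Γ X]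
      (p : X → M), IsQuotientCoveringMap p Γ → bettiTwo Γ X 1 = 0) ∧
    -- (2) the same for closed topological `n`-manifolds, for every `n ≥ 3`
    (∀ n : ℕ, 3 ≤ n → ∀ {M : Type u} {X : Type v} {Γ : Type w}
      [TopologicalSpace M] [T2Space M] [CompactSpace M] [ChartedSpace (EuclideanSpace ℝ (Fin n)) M]
      [TopologicalSpace X] [ContractibleSpace X] [Group Γ] [MulAction Γ X] [ContinuousConstSMul Γ X]
      (p : X → M), IsQuotientCoveringMap p Γ → bettiTwo Γ X 1 = 0) := by
  refine ⟨?_, ?_⟩
  · intro M X Γ _ _ _ _ _ _ _ _ _ p hp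
    exact F.singer p hp
  · intro n hn M X Γ _ _ _ _ _ _ _ _ _ p hp
    exact H260.singer_n hn p hp

end Vale.Agent.Results.P239.SingerDegreeOne
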