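import Vale.Agent.P239.H260.Group
import Vale.Agent.P239.H269.Inf

/-!
The Singer conjecture in dimension four, its degree zero and one parts in every dimension `n ≥ 3`,
and the group theorem behind them.
-/

namespace Vale.Agent.Results.P239.SingerGroups

open Vale.Agent.P239

universe u v w

theorem result :
    -- (1) Q1: `M` is a closed topological 4-manifold, `X` is its universal cover, which is
    -- contractible, and `Γ` is the deck group
    (∀ {M : Type u} {X : Type v} {Γ : Type w}
      [TopologicalSpace M] [T2Space M] [CompactSpace M] [ChartedSpace (EuclideanSpace ℝ (Fin 4)) M]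
      [TopologicalSpace X] [ContractibleSpace X] [Group Γ] [MulAction Γ X] [ContinuousConstSMul Γ X]
      (p : X → M), IsQuotientCoveringMap p Γ → bettiTwo Γ X 1 = 0) ∧
    -- (2) closed topological `n`-manifolds, for every `n ≥ 3`, in degrees 0 and 1
    (∀ n : ℕ, 3 ≤ n → ∀ {M : Type u} {X : Type v} {Γ : Type w}
      [TopologicalSpace M] [T2Space M] [CompactSpace M] [ChartedSpace (EuclideanSpace ℝ (Fin n)) M]
      [TopologicalSpace X] [ContractibleSpace X] [Group Γ] [MulAction Γ X] [ContinuousConstSMul Γ X]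
      (p : X → M), IsQuotientCoveringMap p Γ → bettiTwo Γ X 0 = 0 ∧ bettiTwo Γ X 1 = 0) ∧
    -- (3) `M` is a compact Hausdorff space with a countable base, `X` is a contractible regular
    -- cover with deck group `Γ`, and `H¹(Γ; 𝔽₂[Γ]) = H²(Γ; 𝔽₂[Γ]) = 0`
    (∀ {M : Type u} {X : Type v} {Γ : Type}
      [TopologicalSpace M] [T2Space M] [CompactSpace M] [SecondCountableTopology M]
      [TopologicalSpace X] [ContractibleSpace X] [Group Γ] [MulAction Γ X] [ContinuousConstSMul Γ X]
      (p : X → M), IsQuotientCoveringMap p Γ →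
      Subsingleton (groupCohomology (Rep.leftRegular (ZMod 2) Γ) 1) →
      Subsingleton (groupCohomology (Rep.leftRegular (ZMod 2) Γ) 2) → bettiTwo Γ X 1 = 0) ∧
    -- (4) `X` is a contractible space with a free action of `Γ`, which is torsion free, of type
    -- `FP₃` over `𝔽₂` and satisfies `H¹(Γ; 𝔽₂[Γ]) = H²(Γ; 𝔽₂[Γ]) = 0`
    (∀ {X : Type v} {Γ : Type} [TopologicalSpace X] [ContractibleSpace X] [Group Γ]
      [MulAction Γ X] [ContinuousConstSMul Γ X], (∀ (g : Γ) (x : X), g • x = x → g = 1) →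
      (∀ g : Γ, g ≠ 1 → ∀ n : ℕ, n ≠ 0 → g ^ n ≠ 1) → H260.TypeFP3 Γ →
      Subsingleton (groupCohomology (Rep.leftRegular (ZMod 2) Γ) 1) →
      Subsingleton (groupCohomology (Rep.leftRegular (ZMod 2) Γ) 2) → bettiTwo Γ X 1 = 0) := by
  refine ⟨?_, ?_, ?_, ?_⟩
  · intro M X Γ _ _ _ _ _ _ _ _ _ p hp
    exact F.singer p hp
  · intro n hn M X Γ _ _ _ _ _ _ _ _ _ p hp
    exact ⟨H269.bettiTwo_zero_of_cover (le_trans (by norm_num) hn) p hp, H260.singer_n hn p hp⟩
  · intro M X Γ _ _ _ _ _ _ _ _ _ p hp h1 h2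
    exact H260.betti_one_cover p hp h1 h2
  · intro X Γ _ _ _ _ _ hfree htf hfp h1 h2
    exact H260.betti_one_FP3 hfree htf hfp h1 h2

end Vale.Agent.Results.P239.SingerGroups
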